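import Vale.Agent.P082.Bd8.B5

/-!
# The Kadison–Ringrose cohomology conjecture
-/

namespace Vale.Agent.Results.P082.KadisonRingrose

open Vale.Agent.P082

/-- **The Kadison–Ringrose cohomology conjecture is true**: for every von Neumann algebra `M` all
bounded Hochschild cohomology groups `H_b^n(M, M)`, `n ≥ 1`, vanish (here `n = k + 1` and `k` runs
over all natural numbers). -/
theorem result {H : Type*} [NormedAddCommGroup H] [InnerProductSpace ℂ H] [CompleteSpace H]
    (M : VonNeumannAlgebra H) (k : ℕ) : BoundedCohomologyVanishes M.toStarSubalgebra k :=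
  VN.kadison_ringrose M k

end Vale.Agent.Results.P082.KadisonRingrose
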